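import Vale.Agent.P047.Defs

namespace Vale.Agent.P047

/-- The values `∑ i, f̂({i})` of the Boolean functions `f` on cubes `{-1,1}^n`, `n ≥ 1`,
of degree at most `d`. -/
def linearSums (d : ℕ) : Set ℝ :=
  {s : ℝ | ∃ n : ℕ, 1 ≤ n ∧ ∃ f : Cube n → ℝ, IsBoolean f ∧ degree f ≤ d ∧ linearSum f = s}

/-- `M(d)`: the supremum of `∑ i, f̂({i})` over the Boolean functions of degree at most `d`. -/
noncomputable def maxLinearSum (d : ℕ) : ℝ := sSup (linearSums d)

end Vale.Agent.P047
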