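import Vale.Agent.P047.Bdl.B1
import Vale.Agent.P047.H594.Defs

/-!
Fourier inversion, Parseval, the bound `∑ i, f̂({i}) ≤ deg f` for Boolean functions, and
balanced (odd) extensions.
-/

open Finset

namespace Vale.Agent.P047.H594

noncomputable section

variable {n : ℕ}

/-- The character `∏ i ∈ S, x i`. -/
def chi (S : Finset (Fin n)) (x : Cube n) : ℝ := ∏ i ∈ S, ((x i : ℤ) : ℝ)

theorem unit_sq (u : ℤˣ) : ((u : ℤ) : ℝ) * ((u : ℤ) : ℝ) = 1 := by
  rcases Int.units_eq_one_or u with h | h <;> rw [h] <;> norm_num

theorem sum_chi (x y : Cube n) :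
    ∑ S : Finset (Fin n), chi S x * chi S y = if x = y then (2 : ℝ) ^ n else 0 := by
  have h1 : ∑ S : Finset (Fin n), chi S x * chi S y =
      ∏ i : Fin n, (((x i : ℤ) : ℝ) * ((y i : ℤ) : ℝ) + 1) := by
    rw [Finset.prod_add_one]
    rw [← Finset.powerset_univ]
    refine Finset.sum_congr rfl fun S _ => ?_
    unfold chi
    rw [Finset.prod_mul_distrib]
  rw [h1]
  split_ifs with h
  · subst h
    rw [Finset.prod_congr rfl (fun i _ => by rw [unit_sq])]
    rw [Finset.prod_const, Finset.card_univ, Fintype.card_fin]
    norm_num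
  · obtain ⟨i, hi⟩ := Function.ne_iff.1 h
    apply Finset.prod_eq_zero (Finset.mem_univ i)
    rcases Int.units_eq_one_or (x i) with h1 | h1 <;> rcases Int.units_eq_one_or (y i) with h2 | h2
    · exact absurd (h1.trans h2.symm) hi
    · rw [h1, h2]
      norm_num
    · rw [h1, h2]
      norm_num
    · exact absurd (h1.trans h2.symm) hi

/-- Fourier inversion. -/
theorem inversion (f : Cube n → ℝ) (x : Cube n) :
    ∑ S : Finset (Fin n), fourierCoeff f S * chi S x = f x := by
  have h1 : ∀ S : Finset (Fin n), fourierCoeff f S * chi S x =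
      (∑ y : Cube n, f y * (chi S y * chi S x)) / 2 ^ n := by
    intro S
    unfold fourierCoeff chi
    rw [div_mul_eq_mul_div, Finset.sum_mul]
    congr 1
    refine Finset.sum_congr rfl fun y _ => ?_
    ring
  rw [Finset.sum_congr rfl fun S _ => h1 S, ← Finset.sum_div, Finset.sum_comm]
  have h2 : ∀ y : Cube n, ∑ S : Finset (Fin n), f y * (chi S y * chi S x) =
      if y = x then f y * (2 : ℝ) ^ n else 0 := by
    intro y
    rw [← Finset.mul_sum, sum_chi]
    split_ifs <;> simp
  rw [Finset.sum_congr rfl fun y _ => h2 y, Finset.sum_ite_eq' Finset.univ x]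
  simp

theorem sum_chi_cube (S T : Finset (Fin n)) :
    ∑ x : Cube n, chi S x * chi T x = if S = T then (2 : ℝ) ^ n else 0 := by
  split_ifs with h
  · subst h
    have : ∀ x : Cube n, chi S x * chi S x = 1 := by
      intro x
      unfold chi
      rw [← Finset.prod_mul_distrib]
      exact Finset.prod_eq_one fun i _ => unit_sq _
    rw [Finset.sum_congr rfl fun x _ => this x, Finset.sum_const, Finset.card_univ]
    simp
  · obtain ⟨i, hi⟩ : ∃ i, ¬ (i ∈ S ↔ i ∈ T) := by
      by_contra hc
      push Not at hc
      exact h (Finset.ext hc)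
    -- flip the coordinate i
    have key : ∀ (U : Finset (Fin n)) (x : Cube n), chi U (Function.update x i (-(x i))) =
        (if i ∈ U then -1 else 1) * chi U x := by
      intro U x
      unfold chi
      split_ifs with hU
      · rw [← Finset.mul_prod_erase _ _ hU, ← Finset.mul_prod_erase _ _ hU, Function.update_self]
        have h3 : ∏ j ∈ U.erase i, (((Function.update x i (-(x i)) j : ℤˣ) : ℤ) : ℝ) =
            ∏ j ∈ U.erase i, ((x j : ℤ) : ℝ) := by
          refine Finset.prod_congr rfl (fun j hj => ?_)
          rw [Function.update_of_ne (Finset.ne_of_mem_erase hj)]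
        rw [h3]
        push_cast
        ring
      · rw [one_mul]
        refine Finset.prod_congr rfl (fun j hj => ?_)
        rw [Function.update_of_ne]
        rintro rfl
        exact hU hj
    refine Finset.sum_involution (fun x _ => Function.update x i (-(x i))) ?_ ?_ ?_ ?_
    · intro x _
      rw [key, key]
      by_cases h1 : i ∈ S
      · have h2 : i ∉ T := fun h2 => hi ⟨fun _ => h2, fun _ => h1⟩
        rw [if_pos h1, if_neg h2]
        ring
      · have h2 : i ∈ T := by
          by_contra h2
          exact hi ⟨fun h => absurd h h1, fun h => absurd h h2⟩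
        rw [if_neg h1, if_pos h2]
        ring
    · intro x _ _ hx
      have := congrFun hx i
      rw [Function.update_self] at this
      rcases Int.units_eq_one_or (x i) with h' | h' <;> rw [h'] at this <;>
        exact absurd this (by decide)
    · intro x _
      exact Finset.mem_univ _
    · intro x _
      simp

/-- Parseval. -/
theorem parseval (c : Finset (Fin n) → ℝ) :
    ∑ x : Cube n, (∑ S : Finset (Fin n), c S * chi S x) ^ 2 =
      2 ^ n * ∑ S : Finset (Fin n), c S ^ 2 := by
  have h1 : ∀ x : Cube n, (∑ S : Finset (Fin n), c S * chi S x) ^ 2 =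
      ∑ S : Finset (Fin n), ∑ T : Finset (Fin n), c S * c T * (chi S x * chi T x) := by
    intro x
    rw [sq, Finset.sum_mul_sum]
    refine Finset.sum_congr rfl fun S _ => Finset.sum_congr rfl fun T _ => ?_
    ring
  rw [Finset.sum_congr rfl fun x _ => h1 x, Finset.sum_comm, Finset.mul_sum]
  refine Finset.sum_congr rfl fun S _ => ?_
  rw [Finset.sum_comm]
  have h2 : ∀ T : Finset (Fin n), ∑ x : Cube n, c S * c T * (chi S x * chi T x) =
      if S = T then c S * c T * (2 : ℝ) ^ n else 0 := by
    intro T
    rw [← Finset.mul_sum, sum_chi_cube]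
    split_ifs <;> simp
  rw [Finset.sum_congr rfl fun T _ => h2 T, Finset.sum_ite_eq Finset.univ S]
  simp only [Finset.mem_univ, if_true]
  ring

/-- A function of degree at most `d` has block degree at most `d`. -/
theorem bdeg_of_degree {f : Cube n → ℝ} {d : ℕ} (h : degree f ≤ d) : BDeg d f := by
  have h1 : f = fun x => ∑ S : Finset (Fin n), fourierCoeff f S * chi S x :=
    funext fun x => (inversion f x).symm
  rw [h1]
  refine BDeg.sum _ fun S _ => ?_
  by_cases hS : fourierCoeff f S = 0
  · rw [hS]
    simpa using BDeg.const (ι := Fin n) (Ω := ℤˣ) 0 d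
  · apply BDeg.smul
    have h2 : S.card ≤ d :=
      le_trans (Finset.le_sup (f := Finset.card)
        (Finset.mem_filter.2 ⟨Finset.mem_univ S, hS⟩)) h
    refine BDeg.of_dependsOn (S := S) h2 ?_
    intro x y hxy
    unfold chi
    refine Finset.prod_congr rfl fun i hi => ?_
    rw [hxy i hi]

theorem fourierCoeff_eq_zero_of_degree {f : Cube n → ℝ} {d : ℕ} (h : degree f ≤ d)
    {S : Finset (Fin n)} (hS : d < S.card) : fourierCoeff f S = 0 := by
  by_contra hne
  have : S.card ≤ degree f := Finset.le_sup (f := Finset.card)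
    (Finset.mem_filter.2 ⟨Finset.mem_univ S, hne⟩)
  omega

/-- Half of the derivative in direction `i`. -/
theorem deriv_eq (f : Cube n → ℝ) (i : Fin n) (x : Cube n) :
    (f x - f (Function.update x i (-(x i)))) / 2 =
      ∑ S : Finset (Fin n), (if i ∈ S then fourierCoeff f S else 0) * chi S x := by
  have key : ∀ (U : Finset (Fin n)), chi U (Function.update x i (-(x i))) =
      (if i ∈ U then -1 else 1) * chi U x := by
    intro U
    unfold chi
    split_ifs with hU
    · rw [← Finset.mul_prod_erase _ _ hU, ← Finset.mul_prod_erase _ _ hU, Function.update_self]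
      have h3 : ∏ j ∈ U.erase i, (((Function.update x i (-(x i)) j : ℤˣ) : ℤ) : ℝ) =
          ∏ j ∈ U.erase i, ((x j : ℤ) : ℝ) := by
        refine Finset.prod_congr rfl (fun j hj => ?_)
        rw [Function.update_of_ne (Finset.ne_of_mem_erase hj)]
      rw [h3]
      push_cast
      ring
    · rw [one_mul]
      refine Finset.prod_congr rfl (fun j hj => ?_)
      rw [Function.update_of_ne]
      rintro rfl
      exact hU hj
  rw [← inversion f x, ← inversion f (Function.update x i (-(x i))), ← Finset.sum_sub_distrib,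
    Finset.sum_div]
  refine Finset.sum_congr rfl fun S _ => ?_
  rw [key]
  split_ifs with h <;> ring

/-- The influence bound `f̂({i}) ≤ ∑_{S ∋ i} f̂(S)²` for Boolean functions. -/
theorem coeff_le_influence {f : Cube n → ℝ} (hf : IsBoolean f) (i : Fin n) :
    fourierCoeff f {i} ≤ ∑ S : Finset (Fin n), (if i ∈ S then fourierCoeff f S else 0) ^ 2 := by
  have hp := parseval (n := n) (fun S => if i ∈ S then fourierCoeff f S else 0)
  have h2n : (0 : ℝ) < 2 ^ n := by positivity
  have h1 : ∑ S : Finset (Fin n), (if i ∈ S then fourierCoeff f S else 0) ^ 2 =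
      (∑ x : Cube n, ((f x - f (Function.update x i (-(x i)))) / 2) ^ 2) / 2 ^ n := by
    rw [eq_div_iff h2n.ne', mul_comm, ← hp]
    exact Finset.sum_congr rfl fun x _ => by rw [deriv_eq]
  rw [h1]
  unfold fourierCoeff
  rw [div_le_div_iff_of_pos_right h2n]
  -- symmetrize the left side
  have h2 : ∑ x : Cube n, f x * ∏ j ∈ ({i} : Finset (Fin n)), ((x j : ℤ) : ℝ) =
      ∑ x : Cube n, ((f x - f (Function.update x i (-(x i)))) / 2) * ((x i : ℤ) : ℝ) := by
    have h3 : ∑ x : Cube n, f (Function.update x i (-(x i))) * ((x i : ℤ) : ℝ) =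
        ∑ x : Cube n, - (f x * ((x i : ℤ) : ℝ)) := by
      let e : Cube n ≃ Cube n :=
        { toFun := fun x => Function.update x i (-(x i))
          invFun := fun x => Function.update x i (-(x i))
          left_inv := fun x => by simp
          right_inv := fun x => by simp }
      refine Fintype.sum_equiv e _ _ fun x => ?_
      show f (Function.update x i (-(x i))) * ((x i : ℤ) : ℝ) =
        - (f (Function.update x i (-(x i))) * (((Function.update x i (-(x i))) i : ℤ) : ℝ))
      rw [Function.update_self]
      push_cast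
      ring
    simp only [Finset.prod_singleton]
    have h4 : ∑ x : Cube n, ((f x - f (Function.update x i (-(x i)))) / 2) * ((x i : ℤ) : ℝ) =
        (∑ x : Cube n, f x * ((x i : ℤ) : ℝ) -
          ∑ x : Cube n, f (Function.update x i (-(x i))) * ((x i : ℤ) : ℝ)) / 2 := by
      rw [← Finset.sum_sub_distrib, Finset.sum_div]
      refine Finset.sum_congr rfl fun x _ => ?_
      ring
    rw [h4, h3, Finset.sum_neg_distrib]
    ring
  rw [h2]
  refine Finset.sum_le_sum fun x _ => ?_
  have hx : ((x i : ℤ) : ℝ) = 1 ∨ ((x i : ℤ) : ℝ) = -1 := by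
    rcases Int.units_eq_one_or (x i) with h | h <;> rw [h] <;> simp
  rcases hf x with h3 | h3 <;> rcases hf (Function.update x i (-(x i))) with h4 | h4 <;>
    rcases hx with h5 | h5 <;> rw [h3, h4, h5] <;> norm_num

theorem sum_sq_eq_one {f : Cube n → ℝ} (hf : IsBoolean f) :
    ∑ S : Finset (Fin n), fourierCoeff f S ^ 2 = 1 := by
  have hp := parseval (n := n) (fun S => fourierCoeff f S)
  have h2n : (0 : ℝ) < 2 ^ n := by positivity
  have h1 : ∑ x : Cube n, (∑ S : Finset (Fin n), fourierCoeff f S * chi S x) ^ 2 = 2 ^ n := by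
    have : ∀ x : Cube n, (∑ S : Finset (Fin n), fourierCoeff f S * chi S x) ^ 2 = 1 := by
      intro x
      rw [inversion]
      rcases hf x with h | h <;> rw [h] <;> norm_num
    rw [Finset.sum_congr rfl fun x _ => this x, Finset.sum_const, Finset.card_univ]
    simp
  rw [h1] at hp
  have : (2 : ℝ) ^ n * 1 = 2 ^ n * ∑ S : Finset (Fin n), fourierCoeff f S ^ 2 := by
    rw [mul_one]
    exact hp
  exact (mul_left_cancel₀ h2n.ne' this).symm

/-- `∑ i, f̂({i}) ≤ deg f` for Boolean `f` (Nisan–Szegedy). -/
theorem linearSum_le {f : Cube n → ℝ} (hf : IsBoolean f) {d : ℕ} (hd : degree f ≤ d) :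
    linearSum f ≤ d := by
  calc linearSum f ≤ ∑ i : Fin n, ∑ S : Finset (Fin n),
        (if i ∈ S then fourierCoeff f S else 0) ^ 2 :=
        Finset.sum_le_sum fun i _ => coeff_le_influence hf i
    _ = ∑ S : Finset (Fin n), (S.card : ℝ) * fourierCoeff f S ^ 2 := by
        rw [Finset.sum_comm]
        refine Finset.sum_congr rfl fun S _ => ?_
        have : ∀ i : Fin n, (if i ∈ S then fourierCoeff f S else 0) ^ 2 =
            if i ∈ S then fourierCoeff f S ^ 2 else 0 := by
          intro i
          split_ifs <;> simp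
        rw [Finset.sum_congr rfl fun i _ => this i, Finset.sum_ite_mem, Finset.univ_inter,
          Finset.sum_const, nsmul_eq_mul]
    _ ≤ ∑ S : Finset (Fin n), (d : ℝ) * fourierCoeff f S ^ 2 := by
        refine Finset.sum_le_sum fun S _ => ?_
        by_cases h : d < S.card
        · rw [fourierCoeff_eq_zero_of_degree hd h]
          simp
        · push Not at h
          have : (S.card : ℝ) ≤ d := by exact_mod_cast h
          exact mul_le_mul_of_nonneg_right this (sq_nonneg _)
    _ = d := by rw [← Finset.mul_sum, sum_sq_eq_one hf, mul_one]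

end

end Vale.Agent.P047.H594
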