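import Vale.Agent.P047.H594.Odd

/-!
The growth exponent of `M(d)`.
-/

open Finset Filter
open scoped Topology

namespace Vale.Agent.P047.H594

noncomputable section

/-- Balanced two-label schemes of degree at most `w` and linear sum `L`. -/
def Sch (w : ℕ) (L : ℝ) : Prop :=
  IsScheme w (fun _ : ℤˣ => (1 / 2 : ℝ)) (fun b => ((b : ℤ) : ℝ) * L)

/-- A scheme with two labels gives a balanced Boolean function. -/
theorem extract {W : ℕ} {L : ℝ} (hL : 0 < L) (h : Sch W L) :
    ∃ n : ℕ, 1 ≤ n ∧ ∃ f : Cube n → ℝ, IsBoolean f ∧ fourierCoeff f ∅ = 0 ∧ degree f ≤ W ∧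
      linearSum f = L := by
  obtain ⟨N, lab, h0, h1, h2⟩ := h
  have hsum : linearSum (n := N) (fun x => ((lab x : ℤ) : ℝ)) = L := by
    rw [growth_linearSum]
    have e : (fun x : Cube N => ((lab x : ℤ) : ℝ) * ∑ i, ((x i : ℤ) : ℝ)) = fun x =>
        (if lab x = 1 then ∑ i, ((x i : ℤ) : ℝ) else 0) -
          (if lab x = -1 then ∑ i, ((x i : ℤ) : ℝ) else 0) := by
      funext x
      rcases Int.units_eq_one_or (lab x) with h' | h' <;> rw [h'] <;> simp
    rw [e]
    have e2 : cubeAvg (fun x : Cube N => (if lab x = 1 then ∑ i, ((x i : ℤ) : ℝ) else 0) -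
          (if lab x = -1 then ∑ i, ((x i : ℤ) : ℝ) else 0)) =
        cubeAvg (fun x : Cube N => if lab x = 1 then ∑ i, ((x i : ℤ) : ℝ) else 0) -
        cubeAvg (fun x : Cube N => if lab x = -1 then ∑ i, ((x i : ℤ) : ℝ) else 0) := by
      unfold cubeAvg
      rw [Finset.sum_sub_distrib, sub_div]
    rw [e2, h2 1, h2 (-1)]
    push_cast
    ring
  have e : (fun x : Cube N => ((lab x : ℤ) : ℝ)) = fun x =>
      (if lab x = 1 then (1 : ℝ) else 0) - (if lab x = -1 then (1 : ℝ) else 0) := by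
    funext x
    rcases Int.units_eq_one_or (lab x) with h' | h' <;> rw [h'] <;> simp
  refine ⟨N, ?_, fun x => ((lab x : ℤ) : ℝ), ?_, ?_, ?_, hsum⟩
  · by_contra hN
    have : N = 0 := by omega
    subst this
    have h0 : linearSum (n := 0) (fun x => ((lab x : ℤ) : ℝ)) = 0 := by
      unfold linearSum
      simp
    rw [h0] at hsum
    linarith only [hL, hsum]
  · intro x
    change ((lab x : ℤ) : ℝ) = 1 ∨ ((lab x : ℤ) : ℝ) = -1
    rcases Int.units_eq_one_or (lab x) with h' | h' <;> rw [h'] <;> simp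
  · have h3 : fourierCoeff (n := N) (fun x => ((lab x : ℤ) : ℝ)) ∅ =
        cubeAvg (fun x : Cube N => ((lab x : ℤ) : ℝ)) := by
      unfold fourierCoeff cubeAvg
      simp
    rw [h3, e]
    have h4 : cubeAvg (fun x : Cube N => (if lab x = 1 then (1 : ℝ) else 0) -
        (if lab x = -1 then (1 : ℝ) else 0)) =
        cubeAvg (fun x : Cube N => if lab x = 1 then (1 : ℝ) else 0) -
        cubeAvg (fun x : Cube N => if lab x = -1 then (1 : ℝ) else 0) := by
      unfold cubeAvg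
      rw [Finset.sum_sub_distrib, sub_div]
    rw [h4, h1 1, h1 (-1)]
    ring
  · apply growth_degree_le
    rw [e]
    exact BDeg.sub (h0 1) (h0 (-1))

theorem Sch.le {w : ℕ} {L : ℝ} (h : Sch w L) : L ≤ w := by
  by_cases hL : 0 < L
  · obtain ⟨n, _, f, hf, _, hd, hl⟩ := extract hL h
    rw [← hl]
    exact linearSum_le hf hd
  · push Not at hL
    exact hL.trans (Nat.cast_nonneg _)

theorem bddAbove_linearSums (d : ℕ) : BddAbove (linearSums d) := by
  refine ⟨d, ?_⟩
  rintro s ⟨n, _, f, hf, hd, rfl⟩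
  exact linearSum_le hf hd

theorem sch_one : Sch 1 1 := by
  have := isScheme_bit
  unfold Sch
  simpa using this

theorem nonempty_linearSums {d : ℕ} (hd : 1 ≤ d) : (linearSums d).Nonempty := by
  obtain ⟨n, hn, f, hf, _, hdeg, hl⟩ := extract one_pos sch_one
  exact ⟨1, n, hn, f, hf, hdeg.trans hd, hl⟩

/-- The exponents `log L / log w` of the balanced schemes. -/
def exps : Set ℝ := {a | ∃ (w : ℕ) (L : ℝ), 2 ≤ w ∧ 0 < L ∧ Sch w L ∧ a = Real.log L / Real.log w}

theorem exps_le_one {a : ℝ} (h : a ∈ exps) : a ≤ 1 := by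
  obtain ⟨w, L, hw, hL, hs, rfl⟩ := h
  have hw1 : (1 : ℝ) < w := by exact_mod_cast (by omega : 1 < w)
  rw [div_le_one (Real.log_pos hw1)]
  exact Real.log_le_log hL hs.le

theorem exists_gt_half : ∃ a ∈ exps, 1 / 2 < a := by
  obtain ⟨w, L, hw, hL, hs⟩ := boolScheme_of_unbounded unbounded
  have hw1 : (1 : ℝ) < w := by exact_mod_cast (by omega : 1 < w)
  have hw0 : (0 : ℝ) < w := by linarith
  have hsq : 0 < Real.sqrt w := Real.sqrt_pos.2 hw0
  refine ⟨_, ⟨w, L, hw, hsq.trans hL, hs, rfl⟩, ?_⟩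
  have hlog : Real.log w / 2 < Real.log L := by
    have := Real.log_lt_log hsq hL
    rwa [Real.log_sqrt hw0.le] at this
  rw [lt_div_iff₀ (Real.log_pos hw1)]
  linarith

/-- The growth exponent. -/
def alpha : ℝ := sSup exps

theorem bddAbove_exps : BddAbove exps := ⟨1, fun _ h => exps_le_one h⟩

theorem alpha_le_one : alpha ≤ 1 := by
  obtain ⟨a, ha, _⟩ := exists_gt_half
  exact csSup_le ⟨a, ha⟩ fun _ h => exps_le_one h

theorem half_lt_alpha : 1 / 2 < alpha := by
  obtain ⟨a, ha, h⟩ := exists_gt_half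
  exact h.trans_le (le_csSup bddAbove_exps ha)

/-- `M(d) ≤ (d+1)^α`, for every single function. -/
theorem linearSum_le_rpow {n : ℕ} {f : Cube n → ℝ} (hf : IsBoolean f) {d : ℕ} (h1 : 1 ≤ d)
    (hd : degree f ≤ d) : linearSum f ≤ ((d : ℝ) + 1) ^ alpha := by
  obtain ⟨L, hL, hs⟩ := exists_scheme hf hd
  refine hL.trans ?_
  by_cases h0 : 0 < L
  · have hmem : Real.log L / Real.log ((d + 1 : ℕ) : ℝ) ∈ exps :=
      ⟨d + 1, L, by omega, h0, hs, rfl⟩
    have h2 := le_csSup bddAbove_exps hmem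
    have hd1 : (1 : ℝ) < ((d + 1 : ℕ) : ℝ) := by exact_mod_cast (by omega : 1 < d + 1)
    rw [div_le_iff₀ (Real.log_pos hd1)] at h2
    have hd0 : (0 : ℝ) < ((d + 1 : ℕ) : ℝ) := by linarith
    have h3 : Real.log L ≤ Real.log (((d + 1 : ℕ) : ℝ) ^ alpha) := by
      rw [Real.log_rpow hd0]
      exact h2
    have h4 := (Real.log_le_log_iff h0 (Real.rpow_pos_of_pos hd0 _)).1 h3
    push_cast at h4
    exact h4
  · push Not at h0
    exact h0.trans (Real.rpow_nonneg (by positivity) _)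

/-- Lower bound with an exponent close to `α`, by balanced functions. -/
theorem lower {ε : ℝ} (hε : 0 < ε) : ∃ c : ℝ, 0 < c ∧ ∀ d : ℕ, 1 ≤ d → ∃ n : ℕ, 1 ≤ n ∧
    ∃ f : Cube n → ℝ, IsBoolean f ∧ fourierCoeff f ∅ = 0 ∧ degree f ≤ d ∧
      c * (d : ℝ) ^ (alpha - ε) ≤ linearSum f := by
  obtain ⟨a, ⟨w, L, hw, hL0, h, rfl⟩, ha⟩ := exists_lt_of_lt_csSup
    (let ⟨a, ha, _⟩ := exists_gt_half; ⟨a, ha⟩ : exps.Nonempty)
    (show max (1 / 2) (alpha - ε) < sSup exps from max_lt half_lt_alpha (by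
      show alpha - ε < alpha
      linarith))
  have ha1 := (le_max_left _ _).trans_lt ha
  have ha2 := (le_max_right _ _).trans_lt ha
  have hw1 : (1 : ℝ) < w := by exact_mod_cast (by omega : 1 < w)
  have hw0 : (0 : ℝ) < w := by linarith only [hw1]
  have hlogw : 0 < Real.log w := Real.log_pos hw1
  have hwL : (w : ℝ) ^ (Real.log L / Real.log w) = L := by
    rw [Real.rpow_def_of_pos hw0, mul_div_cancel₀ _ hlogw.ne', Real.exp_log hL0]
  refine ⟨L⁻¹, inv_pos.2 hL0, fun d hd => ?_⟩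
  obtain ⟨n, hn, f, hf1, hf0, hf2, hf3⟩ := extract (pow_pos hL0 (Nat.log w d))
    (growth_pow h (Nat.log w d))
  refine ⟨n, hn, f, hf1, hf0, hf2.trans (Nat.pow_log_le_self w (by omega)), ?_⟩
  rw [hf3]
  have h1 : (d : ℝ) ≤ (w : ℝ) ^ (Nat.log w d + 1) := by
    exact_mod_cast (Nat.lt_pow_succ_log_self (by omega) d).le
  have h2 : (d : ℝ) ^ (Real.log L / Real.log w) ≤ L ^ (Nat.log w d + 1) := by
    have h3 : (d : ℝ) ^ (Real.log L / Real.log w) ≤
        ((w : ℝ) ^ (Nat.log w d + 1)) ^ (Real.log L / Real.log w) :=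
      Real.rpow_le_rpow (by positivity) h1 (by linarith only [ha1])
    refine h3.trans (le_of_eq ?_)
    rw [← Real.rpow_natCast (w : ℝ), ← Real.rpow_mul hw0.le, mul_comm, Real.rpow_mul hw0.le, hwL,
      Real.rpow_natCast]
  have hd1 : (1 : ℝ) ≤ d := by exact_mod_cast hd
  calc L⁻¹ * (d : ℝ) ^ (alpha - ε) ≤ L⁻¹ * (d : ℝ) ^ (Real.log L / Real.log w) :=
        mul_le_mul_of_nonneg_left (Real.rpow_le_rpow_of_exponent_le hd1 ha2.le) (inv_pos.2 hL0).le
    _ ≤ L⁻¹ * L ^ (Nat.log w d + 1) :=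
        mul_le_mul_of_nonneg_left h2 (inv_pos.2 hL0).le
    _ = L ^ (Nat.log w d) := by
        rw [pow_succ]
        field_simp

theorem isLUB_maxLinearSum {d : ℕ} (hd : 1 ≤ d) : IsLUB (linearSums d) (maxLinearSum d) :=
  isLUB_csSup (nonempty_linearSums hd) (bddAbove_linearSums d)

theorem maxLinearSum_le {d : ℕ} (hd : 1 ≤ d) : maxLinearSum d ≤ ((d : ℝ) + 1) ^ alpha := by
  refine csSup_le (nonempty_linearSums hd) ?_
  rintro s ⟨n, _, f, hf, hdeg, rfl⟩
  exact linearSum_le_rpow hf hd hdeg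

theorem le_maxLinearSum {n d : ℕ} (hn : 1 ≤ n) {f : Cube n → ℝ} (hf : IsBoolean f)
    (hd : degree f ≤ d) : linearSum f ≤ maxLinearSum d :=
  le_csSup (bddAbove_linearSums d) ⟨n, hn, f, hf, hd, rfl⟩

theorem one_le_maxLinearSum {d : ℕ} (hd : 1 ≤ d) : 1 ≤ maxLinearSum d := by
  obtain ⟨n, hn, f, hf, _, hdeg, hl⟩ := extract one_pos sch_one
  rw [← hl]
  exact le_maxLinearSum hn hf (hdeg.trans hd)

/-- `log M(d) / log d → α`. -/
theorem tendsto_exponent :
    Tendsto (fun d : ℕ => Real.log (maxLinearSum d) / Real.log d) atTop (𝓝 alpha) := by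
  have hlog : Tendsto (fun d : ℕ => Real.log (d : ℝ)) atTop atTop :=
    Real.tendsto_log_atTop.comp tendsto_natCast_atTop_atTop
  rw [Metric.tendsto_atTop]
  intro ε hε
  obtain ⟨c, hc, hlow⟩ := lower (ε := ε / 2) (by linarith)
  -- upper: α * log (d+1) ≤ α * log d + log 2
  have h1 : ∀ᶠ d : ℕ in atTop, max (Real.log 2) (- Real.log c) < ε / 2 * Real.log (d : ℝ) := by
    have := (Tendsto.const_mul_atTop (show (0 : ℝ) < ε / 2 by linarith) hlog).eventually_gt_atTop
      (max (Real.log 2) (- Real.log c))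
    exact this
  obtain ⟨D, hD⟩ := Filter.eventually_atTop.1 (h1.and (eventually_ge_atTop 2))
  refine ⟨D, fun d hd => ?_⟩
  obtain ⟨h2, h3⟩ := hD d hd
  have hd1 : (1 : ℝ) < d := by exact_mod_cast (by omega : 1 < d)
  have hd0 : (0 : ℝ) < d := by linarith
  have hl0 : 0 < Real.log (d : ℝ) := Real.log_pos hd1
  have hM1 := one_le_maxLinearSum (show 1 ≤ d by omega)
  have hM0 : 0 < maxLinearSum d := by linarith
  have ha0 : 0 < alpha := by linarith [half_lt_alpha]
  -- upper bound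
  have hup : Real.log (maxLinearSum d) ≤ alpha * Real.log d + Real.log 2 := by
    have h4 : Real.log (maxLinearSum d) ≤ Real.log (((d : ℝ) + 1) ^ alpha) :=
      Real.log_le_log hM0 (maxLinearSum_le (by omega))
    rw [Real.log_rpow (by linarith)] at h4
    have h5 : Real.log ((d : ℝ) + 1) ≤ Real.log 2 + Real.log d := by
      rw [← Real.log_mul (by norm_num) hd0.ne']
      exact Real.log_le_log (by linarith) (by linarith)
    have h6 : alpha * Real.log ((d : ℝ) + 1) ≤ alpha * (Real.log 2 + Real.log d) :=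
      mul_le_mul_of_nonneg_left h5 ha0.le
    have h7 : alpha * Real.log 2 ≤ Real.log 2 :=
      mul_le_of_le_one_left (Real.log_nonneg (by norm_num)) alpha_le_one
    linarith
  -- lower bound
  have hlo : Real.log c + (alpha - ε / 2) * Real.log d ≤ Real.log (maxLinearSum d) := by
    obtain ⟨n, hn, f, hf, _, hdeg, hl⟩ := hlow d (by omega)
    have h4 : c * (d : ℝ) ^ (alpha - ε / 2) ≤ maxLinearSum d :=
      hl.trans (le_maxLinearSum hn hf hdeg)
    have h5 := Real.log_le_log (by positivity) h4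
    rw [Real.log_mul hc.ne' (Real.rpow_pos_of_pos hd0 _).ne', Real.log_rpow hd0] at h5
    exact h5
  have h8 : Real.log 2 < ε / 2 * Real.log (d : ℝ) := (le_max_left _ _).trans_lt h2
  have h9 : - Real.log c < ε / 2 * Real.log (d : ℝ) := (le_max_right _ _).trans_lt h2
  rw [Real.dist_eq, abs_lt]
  constructor
  · rw [neg_lt_sub_iff_lt_add, ← sub_lt_iff_lt_add', lt_div_iff₀ hl0]
    linarith
  · rw [sub_lt_iff_lt_add', div_lt_iff₀ hl0]
    linarith

end

end Vale.Agent.P047.H594
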