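import Vale.Agent.P047.H594.Fourier

/-!
Odd extension: a Boolean function of degree at most `d` gives a balanced two-label scheme of
degree at most `d + 1` with at least the same linear sum.
-/

open Finset

namespace Vale.Agent.P047.H594

noncomputable section

variable {n : ℕ}

/-- `u = x 0`, `y i = x 0 * x (i+1)`. -/
def splitEquiv (n : ℕ) : (Fin (n + 1) → ℤˣ) ≃ ℤˣ × Cube n where
  toFun x := (x 0, fun i => x 0 * x i.succ)
  invFun p := Fin.cons p.1 (fun i => p.1 * p.2 i)
  left_inv x := by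
    funext j
    refine Fin.cases ?_ (fun i => ?_) j
    · rfl
    · simp only [Fin.cons_succ]
      rw [← mul_assoc, Int.units_mul_self, one_mul]
  right_inv p := by
    obtain ⟨u, y⟩ := p
    simp only [Fin.cons_zero, Fin.cons_succ, Prod.mk.injEq, true_and]
    funext i
    rw [← mul_assoc, Int.units_mul_self, one_mul]

/-- The odd extension of `f`. -/
def oddExt (f : Cube n → ℝ) (x : Fin (n + 1) → ℤˣ) : ℝ :=
  ((x 0 : ℤ) : ℝ) * f (fun i => x 0 * x i.succ)

theorem bdeg_oddExt {f : Cube n → ℝ} {d : ℕ} (h : BDeg d f) : BDeg (d + 1) (oddExt f) := by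
  classical
  unfold BDeg at h
  induction h using Submodule.span_induction with
  | mem G hG =>
    obtain ⟨S, hS, hSG⟩ := hG
    refine BDeg.of_dependsOn (S := insert 0 (S.image Fin.succ)) ?_ ?_
    · exact (Finset.card_insert_le _ _).trans (Nat.succ_le_succ (Finset.card_image_le.trans hS))
    · intro x y hxy
      have h0 : x 0 = y 0 := hxy 0 (by simp)
      unfold oddExt
      rw [h0]
      congr 1
      apply hSG
      intro i hi
      rw [hxy i.succ]
      simp only [Finset.coe_insert, Finset.coe_image, Set.mem_insert_iff, Set.mem_image]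
      exact Or.inr ⟨i, hi, rfl⟩
  | zero =>
    have e : oddExt (0 : Cube n → ℝ) = fun _ => (0 : ℝ) := by
      funext x
      simp [oddExt]
    rw [e]
    exact BDeg.const 0 _
  | add G H _ _ hG hH =>
    have e : oddExt (G + H) = fun x => oddExt G x + oddExt H x := by
      funext x
      simp only [oddExt, Pi.add_apply]
      ring
    rw [e]
    exact BDeg.add hG hH
  | smul c G _ hG =>
    have e : oddExt (c • G) = fun x => c * oddExt G x := by
      funext x
      simp only [oddExt, Pi.smul_apply, smul_eq_mul]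
      ring
    rw [e]
    exact BDeg.smul c hG

theorem oddExt_neg (f : Cube n → ℝ) (x : Fin (n + 1) → ℤˣ) :
    oddExt f (fun i => - x i) = - oddExt f x := by
  unfold oddExt
  have h : (fun i : Fin n => - x 0 * - x i.succ) = fun i => x 0 * x i.succ := by
    funext i
    rw [neg_mul_neg]
  rw [h]
  push_cast
  ring

theorem cubeAvg_oddExt (f : Cube n → ℝ) : cubeAvg (oddExt f) = 0 := by
  have h := cubeAvg_neg_invariant (κ := Fin (n + 1)) (oddExt f)
  have h2 : cubeAvg (fun x : Fin (n + 1) → ℤˣ => oddExt f (fun i => - x i)) =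
      - cubeAvg (oddExt f) := by
    unfold cubeAvg
    rw [← neg_div, ← Finset.sum_neg_distrib]
    congr 1
    exact Finset.sum_congr rfl fun x _ => oddExt_neg f x
  rw [h2] at h
  linarith

/-- The linear sum of the odd extension. -/
theorem cubeAvg_oddExt_mul (f : Cube n → ℝ) :
    cubeAvg (fun x : Fin (n + 1) → ℤˣ => oddExt f x * ∑ i, ((x i : ℤ) : ℝ)) =
      fourierCoeff f ∅ + linearSum f := by
  have h1 : ∑ x : Fin (n + 1) → ℤˣ, oddExt f x * ∑ i, ((x i : ℤ) : ℝ) =
      ∑ p : ℤˣ × Cube n, f p.2 * (1 + ∑ i, ((p.2 i : ℤ) : ℝ)) := by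
    refine Fintype.sum_equiv (splitEquiv n) _ _ fun x => ?_
    show ((x 0 : ℤ) : ℝ) * f (fun i => x 0 * x i.succ) * ∑ i, ((x i : ℤ) : ℝ) =
      f (fun i => x 0 * x i.succ) * (1 + ∑ i : Fin n, (((x 0 * x i.succ : ℤˣ) : ℤ) : ℝ))
    rw [Fin.sum_univ_succ]
    have h2 : ∑ i : Fin n, (((x 0 * x i.succ : ℤˣ) : ℤ) : ℝ) =
        ((x 0 : ℤ) : ℝ) * ∑ i : Fin n, ((x i.succ : ℤ) : ℝ) := by
      rw [Finset.mul_sum]
      refine Finset.sum_congr rfl fun i _ => ?_
      push_cast
      ring
    rw [h2]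
    have h3 := unit_sq (x 0)
    linear_combination f (fun i => x 0 * x i.succ) * h3
  unfold cubeAvg
  rw [h1, Fintype.sum_prod_type]
  simp only [Finset.sum_const, Finset.card_univ, Fintype.card_units_int, Fintype.card_fin]
  have h4 : linearSum f = (∑ x : Cube n, f x * ∑ i, ((x i : ℤ) : ℝ)) / 2 ^ n := by
    rw [growth_linearSum]
    unfold cubeAvg
    rw [Fintype.card_fin]
  have h5 : fourierCoeff f ∅ = (∑ x : Cube n, f x) / 2 ^ n := by
    unfold fourierCoeff
    simp
  rw [h4, h5]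
  have h6 : ∑ x : Cube n, f x * (1 + ∑ i, ((x i : ℤ) : ℝ)) =
      ∑ x : Cube n, f x + ∑ x : Cube n, f x * ∑ i, ((x i : ℤ) : ℝ) := by
    rw [← Finset.sum_add_distrib]
    refine Finset.sum_congr rfl fun x _ => ?_
    ring
  rw [h6]
  have h7 : (2 : ℝ) ^ n ≠ 0 := by positivity
  rw [pow_succ]
  field_simp
  simp
  ring

/-- The label `±1` of a Boolean function. -/
def sgn (f : Cube n → ℝ) (y : Cube n) : ℤˣ := if f y = 1 then 1 else -1

theorem sgn_cast {f : Cube n → ℝ} (hf : IsBoolean f) (y : Cube n) :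
    ((sgn f y : ℤ) : ℝ) = f y := by
  unfold sgn
  rcases hf y with h | h
  · rw [if_pos h, h]
    norm_num
  · rw [if_neg (by rw [h]; norm_num), h]
    norm_num

/-- The scheme of the odd extension. -/
theorem scheme_oddExt {f : Cube n → ℝ} (hf : IsBoolean f) {d : ℕ} (hd : degree f ≤ d) :
    IsScheme (d + 1) (fun _ : ℤˣ => (1 / 2 : ℝ))
      (fun b => ((b : ℤ) : ℝ) * (fourierCoeff f ∅ + linearSum f)) := by
  let lab : (Fin (n + 1) → ℤˣ) → ℤˣ := fun x => x 0 * sgn f (fun i => x 0 * x i.succ)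
  have hlab : ∀ x, ((lab x : ℤ) : ℝ) = oddExt f x := by
    intro x
    show (((x 0 * sgn f (fun i => x 0 * x i.succ) : ℤˣ) : ℤ) : ℝ) = _
    rw [Units.val_mul, Int.cast_mul, sgn_cast hf]
    rfl
  have hind : ∀ (l : ℤˣ) x, (if lab x = l then (1 : ℝ) else 0) =
      1 / 2 + ((l : ℤ) : ℝ) / 2 * oddExt f x := by
    intro l x
    rw [← hlab]
    rcases Int.units_eq_one_or (lab x) with h | h <;> rcases Int.units_eq_one_or l with h' | h' <;>
      rw [h, h'] <;> norm_num
  have hB : BDeg (d + 1) (oddExt f) := bdeg_oddExt (bdeg_of_degree hd)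
  refine ⟨n + 1, lab, ?_, ?_, ?_⟩
  · intro l
    have e : (fun x => if lab x = l then (1 : ℝ) else 0) =
        fun x => 1 / 2 + ((l : ℤ) : ℝ) / 2 * oddExt f x := funext (hind l)
    rw [e]
    exact BDeg.add (BDeg.const _ _) (BDeg.smul _ hB)
  · intro l
    have e : (fun x => if lab x = l then (1 : ℝ) else 0) =
        fun x => 1 / 2 + ((l : ℤ) : ℝ) / 2 * oddExt f x := funext (hind l)
    rw [e]
    have h1 : cubeAvg (fun x : Fin (n + 1) → ℤˣ => 1 / 2 + ((l : ℤ) : ℝ) / 2 * oddExt f x) =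
        cubeAvg (fun _ : Fin (n + 1) → ℤˣ => (1 / 2 : ℝ)) +
          ((l : ℤ) : ℝ) / 2 * cubeAvg (oddExt f) := by
      unfold cubeAvg
      rw [Finset.sum_add_distrib, ← Finset.mul_sum]
      ring
    rw [h1, cubeAvg_const, cubeAvg_oddExt, mul_zero, add_zero]
  · intro l
    have e : (fun x => if lab x = l then ∑ i, ((x i : ℤ) : ℝ) else 0) =
        fun x => 1 / 2 * (∑ i, ((x i : ℤ) : ℝ)) +
          ((l : ℤ) : ℝ) / 2 * (oddExt f x * ∑ i, ((x i : ℤ) : ℝ)) := by
      funext x
      have := hind l x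
      split_ifs with h
      · rw [if_pos h] at this
        linear_combination (∑ i, ((x i : ℤ) : ℝ)) * this
      · rw [if_neg h] at this
        linear_combination (∑ i, ((x i : ℤ) : ℝ)) * this
    rw [e]
    have h1 : cubeAvg (fun x : Fin (n + 1) → ℤˣ => 1 / 2 * (∑ i, ((x i : ℤ) : ℝ)) +
          ((l : ℤ) : ℝ) / 2 * (oddExt f x * ∑ i, ((x i : ℤ) : ℝ))) =
        1 / 2 * cubeAvg (fun x : Fin (n + 1) → ℤˣ => ∑ i, ((x i : ℤ) : ℝ)) +
          ((l : ℤ) : ℝ) / 2 *
            cubeAvg (fun x : Fin (n + 1) → ℤˣ => oddExt f x * ∑ i, ((x i : ℤ) : ℝ)) := by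
      unfold cubeAvg
      rw [Finset.sum_add_distrib, ← Finset.mul_sum, ← Finset.mul_sum]
      ring
    rw [h1, cubeAvg_linear, cubeAvg_oddExt_mul]
    ring

/-- The reflected function `x ↦ -f(-x)`. -/
def refl (f : Cube n → ℝ) (x : Cube n) : ℝ := - f (fun i => - x i)

theorem refl_boolean {f : Cube n → ℝ} (hf : IsBoolean f) : IsBoolean (refl f) := by
  intro x
  unfold refl
  rcases hf (fun i => - x i) with h | h <;> rw [h] <;> simp

theorem fourierCoeff_refl (f : Cube n → ℝ) (S : Finset (Fin n)) :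
    fourierCoeff (refl f) S = (-1) ^ (S.card + 1) * fourierCoeff f S := by
  unfold fourierCoeff refl
  rw [← mul_div_assoc]
  congr 1
  rw [Finset.mul_sum]
  refine Fintype.sum_equiv (Equiv.neg (Cube n)) _ _ fun x => ?_
  show -f (fun i => - x i) * ∏ i ∈ S, ((x i : ℤ) : ℝ) =
    (-1) ^ (S.card + 1) * (f (-x) * ∏ i ∈ S, (((-x) i : ℤ) : ℝ))
  have h1 : ∏ i ∈ S, (((-x) i : ℤ) : ℝ) = (-1) ^ S.card * ∏ i ∈ S, ((x i : ℤ) : ℝ) := by
    rw [← Finset.prod_const, ← Finset.prod_mul_distrib]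
    refine Finset.prod_congr rfl fun i _ => ?_
    simp
  rw [h1]
  have h2 : (fun i => - x i) = -x := rfl
  rw [h2, pow_succ]
  have h3 : ((-1 : ℝ) ^ S.card) * (-1) ^ S.card = 1 := by
    rw [← mul_pow]
    norm_num
  linear_combination (-(f (-x)) * ∏ i ∈ S, ((x i : ℤ) : ℝ)) * (-h3)

theorem degree_refl (f : Cube n → ℝ) : degree (refl f) = degree f := by
  unfold degree
  congr 1
  ext S
  simp only [Finset.mem_filter, Finset.mem_univ, true_and]
  rw [fourierCoeff_refl]
  constructor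
  · intro h h2
    exact h (by rw [h2, mul_zero])
  · intro h
    exact mul_ne_zero (pow_ne_zero _ (by norm_num)) h

theorem linearSum_refl (f : Cube n → ℝ) : linearSum (refl f) = linearSum f := by
  unfold linearSum
  refine Finset.sum_congr rfl fun i _ => ?_
  rw [fourierCoeff_refl]
  simp

/-- A Boolean function of degree at most `d` gives a balanced scheme of degree at most `d + 1`
with at least the same linear sum. -/
theorem exists_scheme {f : Cube n → ℝ} (hf : IsBoolean f) {d : ℕ} (hd : degree f ≤ d) :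
    ∃ L : ℝ, linearSum f ≤ L ∧ IsScheme (d + 1) (fun _ : ℤˣ => (1 / 2 : ℝ))
      (fun b => ((b : ℤ) : ℝ) * L) := by
  by_cases h : 0 ≤ fourierCoeff f ∅
  · exact ⟨_, by linarith, scheme_oddExt hf hd⟩
  · push Not at h
    refine ⟨_, ?_, scheme_oddExt (refl_boolean hf) (by rw [degree_refl]; exact hd)⟩
    rw [linearSum_refl, fourierCoeff_refl]
    simp only [Finset.card_empty, zero_add, pow_one]
    linarith

theorem scheme_mono {w w' : ℕ} (h : w ≤ w') {P a : ℤˣ → ℝ} (hs : IsScheme w P a) :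
    IsScheme w' P a := by
  obtain ⟨N, lab, h0, h1, h2⟩ := hs
  exact ⟨N, lab, fun l => (h0 l).mono h, h1, h2⟩

end

end Vale.Agent.P047.H594
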